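import Mathlib

/-!
# P052: the finite core of `c(4) ≥ 11`

A family `face` of finite subsets of a ten-point type, closed under subsets, such that
* some 4-set is a face,
* two 4-faces are never disjoint,
* for a 4-face `A`, `x ∉ A`, `o ∈ A` there is `y ∈ A`, `y ≠ o`, with `{o, x, y}` not a face,
* for a 4-face `A` and `a ∈ A` there is `x ∉ A` with `A - a + x` a face,
does not exist.
-/

namespace Vale.Agent.P052.R2.H140

open Finset

theorem core {α : Type*} [Fintype α] [DecidableEq α] (hα : Fintype.card α = 10)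
    (face : Finset α → Prop)
    (hdown : ∀ S T : Finset α, S ⊆ T → face T → face S)
    (hex : ∃ A : Finset α, A.card = 4 ∧ face A)
    (hD : ∀ A B : Finset α, A.card = 4 → B.card = 4 → face A → face B → ¬ Disjoint A B)
    (hL : ∀ (A : Finset α) (x o : α), A.card = 4 → face A → x ∉ A → o ∈ A →
      ∃ y ∈ A, y ≠ o ∧ ¬ face {o, x, y})
    (hW : ∀ (A : Finset α) (a : α), A.card = 4 → face A → a ∈ A →
      ∃ x, x ∉ A ∧ face (insert x (A.erase a))) : False := by
  classical
  obtain ⟨A, hA4, hA⟩ := hex
  -- enumerate `A`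
  have hcardA : Fintype.card A = 4 := by simpa using hA4
  let e : Fin 4 ≃ A := (Fintype.equivFinOfCardEq hcardA).symm
  let a : Fin 4 → α := fun i => (e i : α)
  have ainj : ∀ i j, a i = a j → i = j := fun i j h => e.injective (Subtype.ext h)
  have amem : ∀ i, a i ∈ A := fun i => (e i).2
  have asurj : ∀ y ∈ A, ∃ i, a i = y := fun y hy => ⟨e.symm ⟨y, hy⟩, by simp [a]⟩
  choose x hxA hxB using fun i => hW A (a i) hA4 hA (amem i)
  have hBcard : ∀ i, (insert (x i) (A.erase (a i))).card = 4 := by
    intro i
    rw [card_insert_of_notMem (fun h => hxA i (mem_of_mem_erase h)),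
      card_erase_of_mem (amem i), hA4]
  -- nonfaces
  have hN : ∀ i j, i ≠ j → ¬ face {a i, x i, a j} := by
    intro i j hij hf
    obtain ⟨y, hyA, hyj, hy⟩ := hL A (x i) (a j) hA4 hA (hxA i) (amem j)
    by_cases hyi : y = a i
    · subst hyi
      refine hy (hdown _ _ ?_ hf)
      intro t ht
      simp only [mem_insert, mem_singleton] at ht ⊢
      tauto
    · refine hy (hdown _ _ ?_ (hxB i))
      intro t ht
      simp only [mem_insert, mem_singleton, mem_erase] at ht ⊢
      rcases ht with rfl | rfl | rfl
      · exact Or.inr ⟨fun h => hij (ainj _ _ h).symm, amem j⟩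
      · exact Or.inl rfl
      · exact Or.inr ⟨hyi, hyA⟩
  -- the `x i` are distinct
  have xinj : ∀ i j, x i = x j → i = j := by
    intro i j hx
    by_contra hij
    have third : ∀ i j : Fin 4, ∃ k : Fin 4, k ≠ i ∧ k ≠ j := by decide
    obtain ⟨k, hki, hkj⟩ := third i j
    refine hN i k hki.symm (hdown _ _ ?_ (hxB j))
    intro t ht
    simp only [mem_insert, mem_singleton, mem_erase] at ht ⊢
    rcases ht with rfl | rfl | rfl
    · exact Or.inr ⟨fun h => hij (ainj _ _ h), amem i⟩
    · exact Or.inl hx
    · exact Or.inr ⟨fun h => hkj (ainj _ _ h), amem k⟩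
  have xa : ∀ i j, x i ≠ a j := fun i j h => hxA i (h ▸ amem j)
  -- the two further points
  let E : Finset α := univ \ (univ.image a ∪ univ.image x)
  have hE : E.card = 2 := by
    have h1 : (univ.image a ∪ univ.image x).card = 8 := by
      rw [card_union_of_disjoint, card_image_of_injective, card_image_of_injective]
      · simp
      · intro i j h; exact xinj i j h
      · intro i j h; exact ainj i j h
      · rw [disjoint_left]
        intro t ht ht'
        simp only [mem_image, mem_univ, true_and] at ht ht'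
        obtain ⟨i, rfl⟩ := ht
        obtain ⟨j, hj⟩ := ht'
        exact xa j i hj
    have h2 : E.card = univ.card - (univ.image a ∪ univ.image x).card :=
      card_sdiff_of_subset (subset_univ _)
    rw [h1, card_univ, hα] at h2
    omega
  have memE : ∀ t, (∀ i, t ≠ a i) → (∀ i, t ≠ x i) → t ∈ E := by
    intro t h1 h2
    simp only [E, mem_sdiff, mem_univ, true_and, mem_union, mem_image, not_or, not_exists]
    exact ⟨fun i h => h1 i h.symm, fun i h => h2 i h.symm⟩
  have all4 : ∀ i j k l : Fin 4, i ≠ j → i ≠ k → i ≠ l → j ≠ k → j ≠ l → k ≠ l →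
      ∀ m : Fin 4, m = i ∨ m = j ∨ m = k ∨ m = l := by decide
  -- weak (v) at `B k`
  have hZ : ∀ i j k l : Fin 4, i ≠ j → i ≠ k → i ≠ l → j ≠ k → j ≠ l → k ≠ l →
      ∃ z, (∀ m, z ≠ a m) ∧ z ≠ x i ∧ z ≠ x j ∧ z ≠ x k ∧ face {a i, a j, x k, z} := by
    intro i j k l hij hik hil hjk hjl hkl
    obtain ⟨z, hz, hf⟩ := hW (insert (x k) (A.erase (a k))) (a l) (hBcard k) (hxB k)
      (by
        simp only [mem_insert, mem_erase]
        exact Or.inr ⟨fun h => hkl (ainj _ _ h).symm, amem l⟩)
    have hf' : face {a i, a j, x k, z} := by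
      refine hdown _ _ ?_ hf
      intro t ht
      simp only [mem_insert, mem_singleton, mem_erase] at ht ⊢
      rcases ht with rfl | rfl | rfl | rfl
      · exact Or.inr ⟨fun h => hil (ainj _ _ h), Or.inr ⟨fun h => hik (ainj _ _ h), amem _⟩⟩
      · exact Or.inr ⟨fun h => hjl (ainj _ _ h), Or.inr ⟨fun h => hjk (ainj _ _ h), amem _⟩⟩
      · exact Or.inr ⟨xa _ _, Or.inl rfl⟩
      · exact Or.inl rfl
    simp only [mem_insert, mem_erase, not_or, not_and] at hz
    refine ⟨z, ?_, ?_, ?_, hz.1, hf'⟩
    · intro m hm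
      by_cases hmk : m = k
      · subst hmk
        refine hN m i hik.symm (hdown _ _ ?_ hf')
        intro t ht
        simp only [mem_insert, mem_singleton] at ht ⊢
        rcases ht with rfl | rfl | rfl
        · exact Or.inr (Or.inr (Or.inr hm.symm))
        · exact Or.inr (Or.inr (Or.inl rfl))
        · exact Or.inl rfl
      · exact hz.2 (fun h => hmk (ainj _ _ (hm.symm.trans h))) (hm ▸ amem m)
    · intro hm
      refine hN i j hij (hdown _ _ ?_ hf')
      intro t ht
      simp only [mem_insert, mem_singleton] at ht ⊢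
      rcases ht with rfl | rfl | rfl
      · exact Or.inl rfl
      · exact Or.inr (Or.inr (Or.inr hm.symm))
      · exact Or.inr (Or.inl rfl)
    · intro hm
      refine hN j i hij.symm (hdown _ _ ?_ hf')
      intro t ht
      simp only [mem_insert, mem_singleton] at ht ⊢
      rcases ht with rfl | rfl | rfl
      · exact Or.inr (Or.inl rfl)
      · exact Or.inr (Or.inr (Or.inr hm.symm))
      · exact Or.inl rfl
  -- the common point of opposite pairs
  have card4 : ∀ p q r s : α, p ≠ q → p ≠ r → p ≠ s → q ≠ r → q ≠ s → r ≠ s →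
      ({p, q, r, s} : Finset α).card = 4 := by
    intro p q r s h1 h2 h3 h4 h5 h6
    rw [card_insert_of_notMem, card_insert_of_notMem, card_insert_of_notMem, card_singleton]
    · simpa using h6
    · simp [h4, h5]
    · simp [h1, h2, h3]
  have hZW : ∀ i j k l : Fin 4, i ≠ j → i ≠ k → i ≠ l → j ≠ k → j ≠ l → k ≠ l →
      ∀ z w, (∀ m, z ≠ a m) → z ≠ x i → z ≠ x k → face {a i, a j, x k, z} →
        (∀ m, w ≠ a m) → w ≠ x k → w ≠ x i → face {a k, a l, x i, w} → z = w := by
    intro i j k l hij hik hil hjk hjl hkl z w hza hzi hzk hfz hwa hwk hwi hfw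
    by_contra hzw
    refine hD _ _ (card4 _ _ _ _ ?_ (xa _ _).symm (hza _).symm (xa _ _).symm (hza _).symm
      hzk.symm) (card4 _ _ _ _ ?_ (xa _ _).symm (hwa _).symm (xa _ _).symm (hwa _).symm
      hwi.symm) hfz hfw ?_
    · exact fun h => hij (ainj _ _ h)
    · exact fun h => hkl (ainj _ _ h)
    · rw [disjoint_left]
      intro t ht ht'
      simp only [mem_insert, mem_singleton] at ht ht'
      rcases ht with rfl | rfl | rfl | rfl <;> rcases ht' with h | h | h | h
      · exact hik (ainj _ _ h)
      · exact hil (ainj _ _ h)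
      · exact xa _ _ h.symm
      · exact hwa _ h.symm
      · exact hjk (ainj _ _ h)
      · exact hjl (ainj _ _ h)
      · exact xa _ _ h.symm
      · exact hwa _ h.symm
      · exact xa _ _ h
      · exact xa _ _ h
      · exact hik (xinj _ _ h).symm
      · exact hwk h.symm
      · exact hza _ h
      · exact hza _ h
      · exact hzi h
      · exact hzw h
  have hM : ∀ i j k l : Fin 4, i ≠ j → i ≠ k → i ≠ l → j ≠ k → j ≠ l → k ≠ l →
      ∃ ε ∈ E, face {a i, a j, x k, ε} ∧ face {a i, a j, x l, ε} ∧
        face {a k, a l, x i, ε} ∧ face {a k, a l, x j, ε} := by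
    intro i j k l hij hik hil hjk hjl hkl
    obtain ⟨z1, h1a, h1i, h1j, h1k, f1⟩ := hZ i j k l hij hik hil hjk hjl hkl
    obtain ⟨z2, h2a, h2i, h2j, h2l, f2⟩ := hZ i j l k hij hil hik hjl hjk hkl.symm
    obtain ⟨z3, h3a, h3k, h3l, h3i, f3⟩ := hZ k l i j hkl hik.symm hjk.symm hil.symm hjl.symm hij
    obtain ⟨z4, h4a, h4k, h4l, h4j, f4⟩ := hZ k l j i hkl hjk.symm hik.symm hjl.symm hil.symm
      hij.symm
    -- z1 = z3
    have e13 : z1 = z3 := hZW i j k l hij hik hil hjk hjl hkl z1 z3 h1a h1i h1k f1 h3a h3k h3i f3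
    -- z2 = z3
    have f3' : face {a l, a k, x i, z3} := by
      rwa [show ({a l, a k, x i, z3} : Finset α) = {a k, a l, x i, z3} from
        Finset.insert_comm _ _ _]
    have e23 : z2 = z3 := hZW i j l k hij hil hik hjl hjk hkl.symm z2 z3 h2a h2i h2l f2
      h3a h3l h3i f3'
    -- z1 = z4
    have f1' : face {a j, a i, x k, z1} := by
      rwa [show ({a j, a i, x k, z1} : Finset α) = {a i, a j, x k, z1} from
        Finset.insert_comm _ _ _]
    have e14 : z1 = z4 := hZW j i k l hij.symm hjk hjl hik hil hkl z1 z4 h1a h1j h1k f1'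
      h4a h4k h4j f4
    refine ⟨z1, memE z1 h1a ?_, f1, ?_, ?_, ?_⟩
    · intro m
      rcases all4 i j k l hij hik hil hjk hjl hkl m with rfl | rfl | rfl | rfl
      · exact h1i
      · exact h1j
      · exact h1k
      · rw [e13]; exact h3l
    · rw [e13, ← e23]; exact f2
    · rw [e13]; exact f3
    · rw [e14]; exact f4
  -- two matchings with the same point contradict `hL`
  have hEnd : ∀ i j k l : Fin 4, i ≠ j → i ≠ k → i ≠ l → j ≠ k → j ≠ l → k ≠ l →
      ∀ ε ∈ E, face {a i, a j, x l, ε} → face {a i, a k, x l, ε} → False := by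
    intro i j k l hij hik hil hjk hjl hkl ε hε f1 f2
    have hεa : ∀ m, ε ≠ a m := by
      intro m h
      simp only [E, mem_sdiff, mem_univ, true_and, mem_union, mem_image, not_or,
        not_exists] at hε
      exact hε.1 m h.symm
    have hεx : ∀ m, ε ≠ x m := by
      intro m h
      simp only [E, mem_sdiff, mem_univ, true_and, mem_union, mem_image, not_or,
        not_exists] at hε
      exact hε.2 m h.symm
    obtain ⟨y, hyB, hyo, hy⟩ := hL (insert (x l) (A.erase (a l))) ε (a i) (hBcard l) (hxB l)
      (by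
        simp only [mem_insert, mem_erase, not_or, not_and]
        refine ⟨hεx l, fun _ h => ?_⟩
        obtain ⟨m, hm⟩ := asurj _ h
        exact hεa m hm.symm)
      (by
        simp only [mem_insert, mem_erase]
        exact Or.inr ⟨fun h => hil (ainj _ _ h), amem i⟩)
    simp only [mem_insert, mem_erase] at hyB
    rcases hyB with rfl | ⟨hyl, hyA⟩
    · refine hy (hdown _ _ ?_ f1)
      intro t ht
      simp only [mem_insert, mem_singleton] at ht ⊢
      tauto
    · obtain ⟨m, rfl⟩ := asurj _ hyA
      rcases all4 i j k l hij hik hil hjk hjl hkl m with rfl | rfl | rfl | rfl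
      · exact hyo rfl
      · refine hy (hdown _ _ ?_ f1)
        intro t ht
        simp only [mem_insert, mem_singleton] at ht ⊢
        tauto
      · refine hy (hdown _ _ ?_ f2)
        intro t ht
        simp only [mem_insert, mem_singleton] at ht ⊢
        tauto
      · exact hyl rfl
  obtain ⟨e1, he1, p1, p2, p3, p4⟩ := hM 0 1 2 3 (by decide) (by decide) (by decide) (by decide)
    (by decide) (by decide)
  obtain ⟨e2, he2, q1, q2, q3, q4⟩ := hM 0 2 1 3 (by decide) (by decide) (by decide) (by decide)
    (by decide) (by decide)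
  obtain ⟨e3, he3, r1, r2, r3, r4⟩ := hM 0 3 1 2 (by decide) (by decide) (by decide) (by decide)
    (by decide) (by decide)
  have pig : e1 = e2 ∨ e1 = e3 ∨ e2 = e3 := by
    by_contra hcon
    push Not at hcon
    have hsub : ({e1, e2, e3} : Finset α) ⊆ E := by
      intro t ht
      simp only [mem_insert, mem_singleton] at ht
      rcases ht with rfl | rfl | rfl <;> assumption
    have hc : ({e1, e2, e3} : Finset α).card = 3 := by
      rw [card_insert_of_notMem, card_insert_of_notMem, card_singleton]
      · simpa using hcon.2.2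
      · simp [hcon.1, hcon.2.1]
    have := card_le_card hsub
    omega
  rcases pig with h | h | h
  · subst h
    -- 01|23 and 02|13: i = 0, j = 1, k = 2, l = 3
    exact hEnd 0 1 2 3 (by decide) (by decide) (by decide) (by decide) (by decide) (by decide)
      e1 he1 p2 q2
  · subst h
    -- 01|23 and 03|12: i = 0, j = 1, k = 3, l = 2
    exact hEnd 0 1 3 2 (by decide) (by decide) (by decide) (by decide) (by decide) (by decide)
      e1 he1 p1 r2
  · subst h
    -- 02|13 and 03|12: i = 0, j = 2, k = 3, l = 1
    exact hEnd 0 2 3 1 (by decide) (by decide) (by decide) (by decide) (by decide) (by decide)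
      e2 he2 q1 r1

end Vale.Agent.P052.R2.H140
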